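import Vale.Agent.H5.SnakyDData0
import Vale.Agent.H5.SnakyDData1
import Vale.Agent.H5.SnakyDData2
import Vale.Agent.H5.SnakyDData3
import Vale.Agent.H5.SnakyDData4
import Vale.Agent.H5.SnakyDData5
import Vale.Agent.H5.SnakyDData6
import Vale.Agent.H5.SnakyDData7
import Vale.Agent.H5.SnakyDData8
import Vale.Agent.H5.SnakyDData9
import Vale.Agent.H5.SnakyDData10
import Vale.Agent.H5.SnakyDData11
import Vale.Agent.H5.SnakyDData12
import Vale.Agent.H5.SnakyDData13
import Vale.Agent.H5.SnakyDData14
import Vale.Agent.H5.SnakyDData15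

namespace Vale.Agent.H5.Snaky.SnakyD

open Vale.Agent.H5.Snaky

def tr : T := (.node (.node (.node (.node (.node (.node (.node (.node (.node (.leaf p0 r0) (.leaf p256 r256)) (.node (.leaf p128 r128) (.leaf 0 0))) (.node (.node (.leaf p64 r64) (.leaf p320 r320)) (.node (.leaf p192 r192) (.leaf 0 0)))) (.node (.node (.node (.leaf p32 r32) (.leaf p288 r288)) (.node (.leaf p160 r160) (.leaf 0 0))) (.node (.node (.leaf p96 r96) (.leaf p352 r352)) (.node (.leaf p224 r224) (.leaf 0 0))))) (.node (.node (.node (.node (.leaf p16 r16) (.leaf p272 r272)) (.node (.leaf p144 r144) (.leaf 0 0))) (.node (.node (.leaf p80 r80) (.leaf p336 r336)) (.node (.leaf p208 r208) (.leaf 0 0)))) (.node (.node (.node (.leaf p48 r48) (.leaf p304 r304)) (.node (.leaf p176 r176) (.leaf 0 0))) (.node (.node (.leaf p112 r112) (.leaf p368 r368)) (.node (.leaf p240 r240) (.leaf 0 0)))))) (.node (.node (.node (.node (.node (.leaf p8 r8) (.leaf p264 r264)) (.node (.leaf p136 r136) (.leaf 0 0))) (.node (.node (.leaf p72 r72)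 (.leaf p328 r328)) (.node (.leaf p200 r200) (.leaf 0 0)))) (.node (.node (.node (.leaf p40 r40) (.leaf p296 r296)) (.node (.leaf p168 r168) (.leaf 0 0))) (.node (.node (.leaf p104 r104) (.leaf p360 r360)) (.node (.leaf p232 r232) (.leaf 0 0))))) (.node (.node (.node (.node (.leaf p24 r24) (.leaf p280 r280)) (.node (.leaf p152 r152) (.leaf 0 0))) (.node (.node (.leaf p88 r88) (.leaf p344 r344)) (.node (.leaf p216 r216) (.leaf 0 0)))) (.node (.node (.node (.leaf p56 r56) (.leaf p312 r312)) (.node (.leaf p184 r184) (.leaf 0 0))) (.node (.node (.leaf p120 r120) (.leaf p376 r376)) (.node (.leaf p248 r248) (.leaf 0 0))))))) (.node (.node (.node (.node (.node (.node (.leaf p4 r4) (.leaf p260 r260)) (.node (.leaf p132 r132) (.leaf 0 0))) (.node (.node (.leaf p68 r68) (.leaf p324 r324)) (.node (.leaf p196 r196) (.leaf 0 0)))) (.node (.node (.node (.leaf p36 r36) (.leaf p292 r292)) (.node (.leaf p164 r164) (.leaf 0 0))) (.node (.node (.leaf p100 r100) (.leaf p356 r356)) (.node (.leaf p228 r228) (.leaf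 0 0))))) (.node (.node (.node (.node (.leaf p20 r20) (.leaf p276 r276)) (.node (.leaf p148 r148) (.leaf 0 0))) (.node (.node (.leaf p84 r84) (.leaf p340 r340)) (.node (.leaf p212 r212) (.leaf 0 0)))) (.node (.node (.node (.leaf p52 r52) (.leaf p308 r308)) (.node (.leaf p180 r180) (.leaf 0 0))) (.node (.node (.leaf p116 r116) (.leaf p372 r372)) (.node (.leaf p244 r244) (.leaf 0 0)))))) (.node (.node (.node (.node (.node (.leaf p12 r12) (.leaf p268 r268)) (.node (.leaf p140 r140) (.leaf 0 0))) (.node (.node (.leaf p76 r76) (.leaf p332 r332)) (.node (.leaf p204 r204) (.leaf 0 0)))) (.node (.node (.node (.leaf p44 r44) (.leaf p300 r300)) (.node (.leaf p172 r172) (.leaf 0 0))) (.node (.node (.leaf p108 r108) (.leaf p364 r364)) (.node (.leaf p236 r236) (.leaf 0 0))))) (.node (.node (.node (.node (.leaf p28 r28) (.leaf p284 r284)) (.node (.leaf p156 r156) (.leaf 0 0))) (.node (.node (.leaf p92 r92) (.leaf p348 r348)) (.node (.leaf p220 r220) (.leaf 0 0)))) (.node (.node (.node (.leaf p60 r60)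 (.leaf p316 r316)) (.node (.leaf p188 r188) (.leaf 0 0))) (.node (.node (.leaf p124 r124) (.leaf p380 r380)) (.node (.leaf p252 r252) (.leaf 0 0)))))))) (.node (.node (.node (.node (.node (.node (.node (.leaf p2 r2) (.leaf p258 r258)) (.node (.leaf p130 r130) (.leaf 0 0))) (.node (.node (.leaf p66 r66) (.leaf p322 r322)) (.node (.leaf p194 r194) (.leaf 0 0)))) (.node (.node (.node (.leaf p34 r34) (.leaf p290 r290)) (.node (.leaf p162 r162) (.leaf 0 0))) (.node (.node (.leaf p98 r98) (.leaf p354 r354)) (.node (.leaf p226 r226) (.leaf 0 0))))) (.node (.node (.node (.node (.leaf p18 r18) (.leaf p274 r274)) (.node (.leaf p146 r146) (.leaf 0 0))) (.node (.node (.leaf p82 r82) (.leaf p338 r338)) (.node (.leaf p210 r210) (.leaf 0 0)))) (.node (.node (.node (.leaf p50 r50) (.leaf p306 r306)) (.node (.leaf p178 r178) (.leaf 0 0))) (.node (.node (.leaf p114 r114) (.leaf p370 r370)) (.node (.leaf p242 r242) (.leaf 0 0)))))) (.node (.node (.node (.node (.node (.leaf p10 r10) (.leaf p266 r266)) (.node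 (.leaf p138 r138) (.leaf 0 0))) (.node (.node (.leaf p74 r74) (.leaf p330 r330)) (.node (.leaf p202 r202) (.leaf 0 0)))) (.node (.node (.node (.leaf p42 r42) (.leaf p298 r298)) (.node (.leaf p170 r170) (.leaf 0 0))) (.node (.node (.leaf p106 r106) (.leaf p362 r362)) (.node (.leaf p234 r234) (.leaf 0 0))))) (.node (.node (.node (.node (.leaf p26 r26) (.leaf p282 r282)) (.node (.leaf p154 r154) (.leaf 0 0))) (.node (.node (.leaf p90 r90) (.leaf p346 r346)) (.node (.leaf p218 r218) (.leaf 0 0)))) (.node (.node (.node (.leaf p58 r58) (.leaf p314 r314)) (.node (.leaf p186 r186) (.leaf 0 0))) (.node (.node (.leaf p122 r122) (.leaf p378 r378)) (.node (.leaf p250 r250) (.leaf 0 0))))))) (.node (.node (.node (.node (.node (.node (.leaf p6 r6) (.leaf p262 r262)) (.node (.leaf p134 r134) (.leaf 0 0))) (.node (.node (.leaf p70 r70) (.leaf p326 r326)) (.node (.leaf p198 r198) (.leaf 0 0)))) (.node (.node (.node (.leaf p38 r38) (.leaf p294 r294)) (.node (.leaf p166 r166) (.leaf 0 0))) (.node (.node (.leaf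 p102 r102) (.leaf p358 r358)) (.node (.leaf p230 r230) (.leaf 0 0))))) (.node (.node (.node (.node (.leaf p22 r22) (.leaf p278 r278)) (.node (.leaf p150 r150) (.leaf 0 0))) (.node (.node (.leaf p86 r86) (.leaf p342 r342)) (.node (.leaf p214 r214) (.leaf 0 0)))) (.node (.node (.node (.leaf p54 r54) (.leaf p310 r310)) (.node (.leaf p182 r182) (.leaf 0 0))) (.node (.node (.leaf p118 r118) (.leaf p374 r374)) (.node (.leaf p246 r246) (.leaf 0 0)))))) (.node (.node (.node (.node (.node (.leaf p14 r14) (.leaf p270 r270)) (.node (.leaf p142 r142) (.leaf 0 0))) (.node (.node (.leaf p78 r78) (.leaf p334 r334)) (.node (.leaf p206 r206) (.leaf 0 0)))) (.node (.node (.node (.leaf p46 r46) (.leaf p302 r302)) (.node (.leaf p174 r174) (.leaf 0 0))) (.node (.node (.leaf p110 r110) (.leaf p366 r366)) (.node (.leaf p238 r238) (.leaf 0 0))))) (.node (.node (.node (.node (.leaf p30 r30) (.leaf p286 r286)) (.node (.leaf p158 r158) (.leaf 0 0))) (.node (.node (.leaf p94 r94) (.leaf p350 r350)) (.node (.leaf p222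 r222) (.leaf 0 0)))) (.node (.node (.node (.leaf p62 r62) (.leaf p318 r318)) (.node (.leaf p190 r190) (.leaf 0 0))) (.node (.node (.leaf p126 r126) (.leaf 0 0)) (.node (.leaf p254 r254) (.leaf 0 0))))))))) (.node (.node (.node (.node (.node (.node (.node (.node (.leaf p1 r1) (.leaf p257 r257)) (.node (.leaf p129 r129) (.leaf 0 0))) (.node (.node (.leaf p65 r65) (.leaf p321 r321)) (.node (.leaf p193 r193) (.leaf 0 0)))) (.node (.node (.node (.leaf p33 r33) (.leaf p289 r289)) (.node (.leaf p161 r161) (.leaf 0 0))) (.node (.node (.leaf p97 r97) (.leaf p353 r353)) (.node (.leaf p225 r225) (.leaf 0 0))))) (.node (.node (.node (.node (.leaf p17 r17) (.leaf p273 r273)) (.node (.leaf p145 r145) (.leaf 0 0))) (.node (.node (.leaf p81 r81) (.leaf p337 r337)) (.node (.leaf p209 r209) (.leaf 0 0)))) (.node (.node (.node (.leaf p49 r49) (.leaf p305 r305)) (.node (.leaf p177 r177) (.leaf 0 0))) (.node (.node (.leaf p113 r113) (.leaf p369 r369)) (.node (.leaf p241 r241) (.leaf 0 0)))))) (.node (.node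 (.node (.node (.node (.leaf p9 r9) (.leaf p265 r265)) (.node (.leaf p137 r137) (.leaf 0 0))) (.node (.node (.leaf p73 r73) (.leaf p329 r329)) (.node (.leaf p201 r201) (.leaf 0 0)))) (.node (.node (.node (.leaf p41 r41) (.leaf p297 r297)) (.node (.leaf p169 r169) (.leaf 0 0))) (.node (.node (.leaf p105 r105) (.leaf p361 r361)) (.node (.leaf p233 r233) (.leaf 0 0))))) (.node (.node (.node (.node (.leaf p25 r25) (.leaf p281 r281)) (.node (.leaf p153 r153) (.leaf 0 0))) (.node (.node (.leaf p89 r89) (.leaf p345 r345)) (.node (.leaf p217 r217) (.leaf 0 0)))) (.node (.node (.node (.leaf p57 r57) (.leaf p313 r313)) (.node (.leaf p185 r185) (.leaf 0 0))) (.node (.node (.leaf p121 r121) (.leaf p377 r377)) (.node (.leaf p249 r249) (.leaf 0 0))))))) (.node (.node (.node (.node (.node (.node (.leaf p5 r5) (.leaf p261 r261)) (.node (.leaf p133 r133) (.leaf 0 0))) (.node (.node (.leaf p69 r69) (.leaf p325 r325)) (.node (.leaf p197 r197) (.leaf 0 0)))) (.node (.node (.node (.leaf p37 r37) (.leaf p293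 r293)) (.node (.leaf p165 r165) (.leaf 0 0))) (.node (.node (.leaf p101 r101) (.leaf p357 r357)) (.node (.leaf p229 r229) (.leaf 0 0))))) (.node (.node (.node (.node (.leaf p21 r21) (.leaf p277 r277)) (.node (.leaf p149 r149) (.leaf 0 0))) (.node (.node (.leaf p85 r85) (.leaf p341 r341)) (.node (.leaf p213 r213) (.leaf 0 0)))) (.node (.node (.node (.leaf p53 r53) (.leaf p309 r309)) (.node (.leaf p181 r181) (.leaf 0 0))) (.node (.node (.leaf p117 r117) (.leaf p373 r373)) (.node (.leaf p245 r245) (.leaf 0 0)))))) (.node (.node (.node (.node (.node (.leaf p13 r13) (.leaf p269 r269)) (.node (.leaf p141 r141) (.leaf 0 0))) (.node (.node (.leaf p77 r77) (.leaf p333 r333)) (.node (.leaf p205 r205) (.leaf 0 0)))) (.node (.node (.node (.leaf p45 r45) (.leaf p301 r301)) (.node (.leaf p173 r173) (.leaf 0 0))) (.node (.node (.leaf p109 r109) (.leaf p365 r365)) (.node (.leaf p237 r237) (.leaf 0 0))))) (.node (.node (.node (.node (.leaf p29 r29) (.leaf p285 r285)) (.node (.leaf p157 r157) (.leaf 0 0)))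 (.node (.node (.leaf p93 r93) (.leaf p349 r349)) (.node (.leaf p221 r221) (.leaf 0 0)))) (.node (.node (.node (.leaf p61 r61) (.leaf p317 r317)) (.node (.leaf p189 r189) (.leaf 0 0))) (.node (.node (.leaf p125 r125) (.leaf p381 r381)) (.node (.leaf p253 r253) (.leaf 0 0)))))))) (.node (.node (.node (.node (.node (.node (.node (.leaf p3 r3) (.leaf p259 r259)) (.node (.leaf p131 r131) (.leaf 0 0))) (.node (.node (.leaf p67 r67) (.leaf p323 r323)) (.node (.leaf p195 r195) (.leaf 0 0)))) (.node (.node (.node (.leaf p35 r35) (.leaf p291 r291)) (.node (.leaf p163 r163) (.leaf 0 0))) (.node (.node (.leaf p99 r99) (.leaf p355 r355)) (.node (.leaf p227 r227) (.leaf 0 0))))) (.node (.node (.node (.node (.leaf p19 r19) (.leaf p275 r275)) (.node (.leaf p147 r147) (.leaf 0 0))) (.node (.node (.leaf p83 r83) (.leaf p339 r339)) (.node (.leaf p211 r211) (.leaf 0 0)))) (.node (.node (.node (.leaf p51 r51) (.leaf p307 r307)) (.node (.leaf p179 r179) (.leaf 0 0))) (.node (.node (.leaf p115 r115) (.leaf p371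 r371)) (.node (.leaf p243 r243) (.leaf 0 0)))))) (.node (.node (.node (.node (.node (.leaf p11 r11) (.leaf p267 r267)) (.node (.leaf p139 r139) (.leaf 0 0))) (.node (.node (.leaf p75 r75) (.leaf p331 r331)) (.node (.leaf p203 r203) (.leaf 0 0)))) (.node (.node (.node (.leaf p43 r43) (.leaf p299 r299)) (.node (.leaf p171 r171) (.leaf 0 0))) (.node (.node (.leaf p107 r107) (.leaf p363 r363)) (.node (.leaf p235 r235) (.leaf 0 0))))) (.node (.node (.node (.node (.leaf p27 r27) (.leaf p283 r283)) (.node (.leaf p155 r155) (.leaf 0 0))) (.node (.node (.leaf p91 r91) (.leaf p347 r347)) (.node (.leaf p219 r219) (.leaf 0 0)))) (.node (.node (.node (.leaf p59 r59) (.leaf p315 r315)) (.node (.leaf p187 r187) (.leaf 0 0))) (.node (.node (.leaf p123 r123) (.leaf p379 r379)) (.node (.leaf p251 r251) (.leaf 0 0))))))) (.node (.node (.node (.node (.node (.node (.leaf p7 r7) (.leaf p263 r263)) (.node (.leaf p135 r135) (.leaf 0 0))) (.node (.node (.leaf p71 r71) (.leaf p327 r327)) (.node (.leaf p199 r199)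 (.leaf 0 0)))) (.node (.node (.node (.leaf p39 r39) (.leaf p295 r295)) (.node (.leaf p167 r167) (.leaf 0 0))) (.node (.node (.leaf p103 r103) (.leaf p359 r359)) (.node (.leaf p231 r231) (.leaf 0 0))))) (.node (.node (.node (.node (.leaf p23 r23) (.leaf p279 r279)) (.node (.leaf p151 r151) (.leaf 0 0))) (.node (.node (.leaf p87 r87) (.leaf p343 r343)) (.node (.leaf p215 r215) (.leaf 0 0)))) (.node (.node (.node (.leaf p55 r55) (.leaf p311 r311)) (.node (.leaf p183 r183) (.leaf 0 0))) (.node (.node (.leaf p119 r119) (.leaf p375 r375)) (.node (.leaf p247 r247) (.leaf 0 0)))))) (.node (.node (.node (.node (.node (.leaf p15 r15) (.leaf p271 r271)) (.node (.leaf p143 r143) (.leaf 0 0))) (.node (.node (.leaf p79 r79) (.leaf p335 r335)) (.node (.leaf p207 r207) (.leaf 0 0)))) (.node (.node (.node (.leaf p47 r47) (.leaf p303 r303)) (.node (.leaf p175 r175) (.leaf 0 0))) (.node (.node (.leaf p111 r111) (.leaf p367 r367)) (.node (.leaf p239 r239) (.leaf 0 0))))) (.node (.node (.node (.node (.leaf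 p31 r31) (.leaf p287 r287)) (.node (.leaf p159 r159) (.leaf 0 0))) (.node (.node (.leaf p95 r95) (.leaf p351 r351)) (.node (.leaf p223 r223) (.leaf 0 0)))) (.node (.node (.node (.leaf p63 r63) (.leaf p319 r319)) (.node (.leaf p191 r191) (.leaf 0 0))) (.node (.node (.leaf p127 r127) (.leaf 0 0)) (.node (.leaf p255 r255) (.leaf 0 0))))))))))

end Vale.Agent.H5.Snaky.SnakyD
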