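import Vale.Agent.H5.SnakyEData0
import Vale.Agent.H5.SnakyEData1
import Vale.Agent.H5.SnakyEData2
import Vale.Agent.H5.SnakyEData3
import Vale.Agent.H5.SnakyEData4

namespace Vale.Agent.H5.Snaky.SnakyE

open Vale.Agent.H5.Snaky

def tr : T := (.node (.node (.node (.node (.node (.node (.node (.leaf p0 r0) (.leaf p64 r64)) (.node (.leaf p32 r32) (.leaf p96 r96))) (.node (.node (.leaf p16 r16) (.leaf p80 r80)) (.node (.leaf p48 r48) (.leaf 0 0)))) (.node (.node (.node (.leaf p8 r8) (.leaf p72 r72)) (.node (.leaf p40 r40) (.leaf p104 r104))) (.node (.node (.leaf p24 r24) (.leaf p88 r88)) (.node (.leaf p56 r56) (.leaf 0 0))))) (.node (.node (.node (.node (.leaf p4 r4) (.leaf p68 r68)) (.node (.leaf p36 r36) (.leaf p100 r100))) (.node (.node (.leaf p20 r20) (.leaf p84 r84)) (.node (.leaf p52 r52) (.leaf 0 0)))) (.node (.node (.node (.leaf p12 r12) (.leaf p76 r76)) (.node (.leaf p44 r44) (.leaf 0 0))) (.node (.node (.leaf p28 r28) (.leaf p92 r92)) (.node (.leaf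 p60 r60) (.leaf 0 0)))))) (.node (.node (.node (.node (.node (.leaf p2 r2) (.leaf p66 r66)) (.node (.leaf p34 r34) (.leaf p98 r98))) (.node (.node (.leaf p18 r18) (.leaf p82 r82)) (.node (.leaf p50 r50) (.leaf 0 0)))) (.node (.node (.node (.leaf p10 r10) (.leaf p74 r74)) (.node (.leaf p42 r42) (.leaf 0 0))) (.node (.node (.leaf p26 r26) (.leaf p90 r90)) (.node (.leaf p58 r58) (.leaf 0 0))))) (.node (.node (.node (.node (.leaf p6 r6) (.leaf p70 r70)) (.node (.leaf p38 r38) (.leaf p102 r102))) (.node (.node (.leaf p22 r22) (.leaf p86 r86)) (.node (.leaf p54 r54) (.leaf 0 0)))) (.node (.node (.node (.leaf p14 r14) (.leaf p78 r78)) (.node (.leaf p46 r46) (.leaf 0 0))) (.node (.node (.leaf p30 r30) (.leaf p94 r94)) (.node (.leaf p62 r62) (.leaf 0 0))))))) (.node (.node (.node (.node (.node (.node (.leaf p1 r1) (.leaf p65 r65)) (.node (.leaf p33 r33) (.leaf p97 r97))) (.node (.node (.leaf p17 r17) (.leaf p81 r81)) (.node (.leaf p49 r49) (.leaf 0 0)))) (.node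 (.node (.node (.leaf p9 r9) (.leaf p73 r73)) (.node (.leaf p41 r41) (.leaf p105 r105))) (.node (.node (.leaf p25 r25) (.leaf p89 r89)) (.node (.leaf p57 r57) (.leaf 0 0))))) (.node (.node (.node (.node (.leaf p5 r5) (.leaf p69 r69)) (.node (.leaf p37 r37) (.leaf p101 r101))) (.node (.node (.leaf p21 r21) (.leaf p85 r85)) (.node (.leaf p53 r53) (.leaf 0 0)))) (.node (.node (.node (.leaf p13 r13) (.leaf p77 r77)) (.node (.leaf p45 r45) (.leaf 0 0))) (.node (.node (.leaf p29 r29) (.leaf p93 r93)) (.node (.leaf p61 r61) (.leaf 0 0)))))) (.node (.node (.node (.node (.node (.leaf p3 r3) (.leaf p67 r67)) (.node (.leaf p35 r35) (.leaf p99 r99))) (.node (.node (.leaf p19 r19) (.leaf p83 r83)) (.node (.leaf p51 r51) (.leaf 0 0)))) (.node (.node (.node (.leaf p11 r11) (.leaf p75 r75)) (.node (.leaf p43 r43) (.leaf 0 0))) (.node (.node (.leaf p27 r27) (.leaf p91 r91)) (.node (.leaf p59 r59) (.leaf 0 0))))) (.node (.node (.node (.node (.leaf p7 r7) (.leaf p71 r71))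 (.node (.leaf p39 r39) (.leaf p103 r103))) (.node (.node (.leaf p23 r23) (.leaf p87 r87)) (.node (.leaf p55 r55) (.leaf 0 0)))) (.node (.node (.node (.leaf p15 r15) (.leaf p79 r79)) (.node (.leaf p47 r47) (.leaf 0 0))) (.node (.node (.leaf p31 r31) (.leaf p95 r95)) (.node (.leaf p63 r63) (.leaf 0 0))))))))

end Vale.Agent.H5.Snaky.SnakyE
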